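import Vale.Agent.P073Z.Sk1

/-!
# The boundary of a convex body minus a convex piece
-/

open Set Metric Topology Filter

namespace P073

theorem A3.frc0 {E : Type} [NormedAddCommGroup E] [NormedSpace ℝ E] (hE : 1 < Module.rank ℝ E)
    {K C : Set E} (hK : IsCompact K) (hc : Convex ℝ K) (h0 : K ∈ 𝓝 (0 : E)) (hC : Convex ℝ C)
    (hs : C ⊆ frontier K) : IsConnected (frontier K \ C) := by
  have hpos : ∀ y : E, y ≠ 0 → 0 < gauge K y := fun y hy =>
    (gauge_pos (absorbent_nhds_zero h0) ((NormedSpace.isVonNBounded_iff ℝ).2 hK.isBounded)).2 hy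
  have hfr : ∀ y, y ∈ frontier K ↔ gauge K y = 1 := fun y => (gauge_eq_one_iff_mem_frontier hc h0).symm
  have hsm : ∀ (s : ℝ) (y : E), 0 ≤ s → gauge K (s • y) = s * gauge K y := fun s y h =>
    gauge_smul_of_nonneg h y
  set Q : Set E := {x | x = 0 ∨ ∃ s : ℝ, 0 < s ∧ ∃ c ∈ C, x = s • c} with hQ
  have hadd : ∀ x ∈ Q, ∀ s : ℝ, 0 < s → ∀ c ∈ C, ∃ s' : ℝ, 0 < s' ∧ ∃ c' ∈ C, x + s • c = s' • c' := by
    rintro x (rfl | ⟨s', hs', c', hc', rfl⟩) s hs c hcC
    · exact ⟨s, hs, c, hcC, zero_add _⟩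
    · have h1 : 0 < s' + s := add_pos hs' hs
      refine ⟨s' + s, h1, _, hC hc' hcC (div_pos hs' h1).le (div_pos hs h1).le
        (by rw [← add_div, div_self h1.ne']), ?_⟩
      rw [smul_add, smul_smul, smul_smul, mul_div_cancel₀ _ h1.ne', mul_div_cancel₀ _ h1.ne']
  have hne : ∀ s : ℝ, 0 < s → ∀ c ∈ C, s • c ≠ 0 := fun s hs0 c hcC h => by
    have := hsm s c hs0.le
    rw [h, gauge_zero, (hfr c).1 (hs hcC), mul_one] at this
    exact hs0.ne this
  have hconn : IsConnected Qᶜ := by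
    rcases C.eq_empty_or_nonempty with rfl | ⟨c, hcC⟩
    · have : Q = {0} := by
        ext x
        simp [hQ]
      rw [this]
      exact isConnected_compl_singleton_of_one_lt_rank hE 0
    have hm : -c ∈ Qᶜ := fun h => by
      obtain ⟨s', hs', c', hc', e⟩ := hadd _ h 1 one_pos c hcC
      rw [one_smul, neg_add_cancel] at e
      exact hne s' hs' c' hc' e.symm
    refine (StarConvex.isPathConnected ?_ hm).isConnected
    intro x hx a b ha hb hab h
    rcases hb.eq_or_lt with rfl | hb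
    · rw [add_zero] at hab
      rw [hab, one_smul, zero_smul, add_zero] at h
      exact hm h
    have key : ∀ s' : ℝ, 0 < s' → ∀ c' ∈ C, b • x = s' • c' → False := fun s' hs' c' hc' e =>
      hx (Or.inr ⟨b⁻¹ * s', by positivity, c', hc', by
        rw [mul_smul, ← e, smul_smul, inv_mul_cancel₀ hb.ne', one_smul]⟩)
    rcases ha.eq_or_lt with rfl | ha
    · rw [zero_add] at hab
      rw [hab, one_smul, zero_smul, zero_add] at h
      exact hx h
    · obtain ⟨s', hs', c', hc', e⟩ := hadd _ h a ha c hcC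
      exact key s' hs' c' hc' (by rw [← e, smul_neg]; abel)
  have him : (fun x => (gauge K x)⁻¹ • x) '' Qᶜ = frontier K \ C := by
    ext y
    constructor
    · rintro ⟨x, hx, rfl⟩
      have h1 := hpos x fun h => hx (Or.inl h)
      refine ⟨(hfr _).2 (by rw [hsm _ _ (inv_pos.2 h1).le, inv_mul_cancel₀ h1.ne']), fun h => ?_⟩
      exact hx (Or.inr ⟨_, h1, _, h, by rw [smul_smul, mul_inv_cancel₀ h1.ne', one_smul]⟩)
    · rintro ⟨hy, hyC⟩
      have h1 := (hfr y).1 hy
      refine ⟨y, ?_, by simp only [h1, inv_one, one_smul]⟩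
      rintro (rfl | ⟨s, hs0, c, hcC, rfl⟩)
      · rw [gauge_zero] at h1
        exact zero_ne_one h1
      · rw [hsm _ _ hs0.le, (hfr c).1 (hs hcC), mul_one] at h1
        rw [h1, one_smul] at hyC
        exact hyC hcC
  rw [← him]
  refine hconn.image _ (ContinuousOn.smul (ContinuousOn.inv₀ (continuous_gauge hc h0).continuousOn
    fun x hx => (hpos x fun h => hx (Or.inl h)).ne') continuousOn_id)

theorem frc : FRC := by
  intro n K C hK hc ⟨a, ha⟩ hC _ hs
  have hE : 1 < Module.rank ℝ (Fin (n + 2) → ℝ) := by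
    rw [rank_fin_fun]
    exact_mod_cast (by omega : 1 < n + 2)
  set τ := Homeomorph.addLeft a with hτ
  have h := A3.frc0 hE (K := τ ⁻¹' K) (C := τ ⁻¹' C) (τ.isCompact_preimage.2 hK)
    (hc.translate_preimage_right a)
    (τ.continuous.continuousAt.preimage_mem_nhds (by simpa [hτ] using mem_interior_iff_mem_nhds.1 ha))
    (hC.translate_preimage_right a) (by rw [← τ.preimage_frontier]; exact preimage_mono hs)
  rw [← τ.preimage_frontier, ← preimage_sdiff, τ.isConnected_preimage] at h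
  exact ⟨h.isPreconnected, h.nonempty⟩

end P073
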