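import Vale.Agent.P073Z.SHELL.A

/-!
# Pairs, regions between two graphs, top and bottom of a convex body
-/

open Set Metric Topology Filter

namespace P073.A3

variable {E F G : Type} [NormedAddCommGroup E] [NormedSpace ℝ E]
  [NormedAddCommGroup F] [NormedSpace ℝ F] [NormedAddCommGroup G] [NormedSpace ℝ G]

/-- PL homeomorphic pairs -/
def PH (X A : Set E) (Y B : Set F) : Prop := A ⊆ X ∧ ∃ φ : ConHomeo X Y, φ.toFun '' A = B

theorem PH.symm {X A : Set E} {Y B : Set F} (h : PH X A Y B) : PH Y B X A := by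
  obtain ⟨hA, φ, rfl⟩ := h
  refine ⟨(image_mono hA).trans φ.mapsTo.image_subset, φ.symm, ?_⟩
  rw [image_image]
  exact (image_congr fun x hx => φ.left_inv (hA hx)).trans (image_id' A)

theorem PH.trans {X A : Set E} {Y B : Set F} {Z C : Set G} (h : PH X A Y B) (h' : PH Y B Z C) :
    PH X A Z C := by
  obtain ⟨hA, φ, rfl⟩ := h
  obtain ⟨-, ψ, rfl⟩ := h'
  exact ⟨hA, φ.trans ψ, image_comp ψ.toFun φ.toFun A⟩

theorem PH.ball {n : ℕ} {X A : Set E} {Y B : Set F} (h : PH X A Y B) (h' : ConBall n Y B) :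
    ConBall n X A := PH.trans h h'

theorem conicalSet_le {X : Set E} {f g : E → ℝ} (hf : ConicalOn f X) (hg : ConicalOn g X) :
    ConicalSet {x | x ∈ X ∧ f x ≤ g x} := by
  intro x hx
  obtain ⟨r, hr, H⟩ := (hf.sub hg) x hx.1
  refine ⟨r, hr, fun v hv hxv t ht => ?_⟩
  obtain ⟨h1, h2⟩ := H v hv hxv.1 t ht
  refine ⟨h1, ?_⟩
  simp only [smul_eq_mul] at h2
  nlinarith [mul_nonneg ht.1 (sub_nonneg.2 hxv.2), mul_nonneg (sub_nonneg.2 ht.2) (sub_nonneg.2 hx.2)]

theorem locCone_prod {X : Set E} {Y : Set F} (hX : LocCone X) (hY : LocCone Y) : LocCone (X ×ˢ Y) := by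
  rintro ⟨x, y⟩
  obtain ⟨r, hr, h1⟩ := hX x
  obtain ⟨s, hs, h2⟩ := hY y
  exact ⟨min r s, lt_min hr hs, fun v hv t ht => and_congr
    (h1 v.1 ((norm_fst_le v).trans (hv.trans (min_le_left _ _))) t ht)
    (h2 v.2 ((norm_snd_le v).trans (hv.trans (min_le_right _ _))) t ht)⟩

/-- the region between two graphs -/
def Rg (D : Set E) (a b : E → ℝ) : Set (E × ℝ) := {q | q.1 ∈ D ∧ a q.1 ≤ q.2 ∧ q.2 ≤ b q.1}

/-- the two graphs -/
def Gr (D : Set E) (a b : E → ℝ) : Set (E × ℝ) := {q | q.1 ∈ D ∧ (q.2 = a q.1 ∨ q.2 = b q.1)}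

theorem pl_fst {D : Set E} {h : E → F} (hh : PLOn h D) :
    PLOn (fun q : E × ℝ => h q.1) (D ×ˢ univ) :=
  ⟨hh.1.comp continuousOn_fst fun _ hq => hq.1,
    hh.2.comp (Sh.conicalOn_fst (Sh.conicalSet_prod hh.2.conicalSet Sh.conicalSet_univ))
      (fun _ hq => hq.1) continuousOn_fst⟩

theorem conicalSet_Rg {D : Set E} {a b : E → ℝ} (ha : PLOn a D) (hb : PLOn b D) :
    ConicalSet (Rg D a b) := by
  have hs := Sh.conicalOn_snd (Sh.conicalSet_prod ha.2.conicalSet (Sh.conicalSet_univ (E := ℝ)))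
  have := (conicalSet_le (pl_fst ha).2 hs).inter (conicalSet_le hs (pl_fst hb).2)
  convert this using 1
  ext q
  simp only [Rg, mem_ofPred_eq, mem_inter_iff, mem_prod, mem_univ, and_true]
  tauto

theorem isCompact_Rg {D : Set E} {a b : E → ℝ} (hD : IsCompact D) (ha : PLOn a D) (hb : PLOn b D) :
    IsCompact (Rg D a b) := by
  obtain ⟨m, hm⟩ := hD.exists_bound_of_continuousOn ha.1
  obtain ⟨M, hM⟩ := hD.exists_bound_of_continuousOn hb.1
  have hc : IsClosed (D ×ˢ (univ : Set ℝ)) := hD.isClosed.prod isClosed_univ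
  refine (hD.prod (isCompact_Icc (a := -m) (b := M))).of_isClosed_subset ?_ fun q hq =>
    ⟨hq.1, (abs_le.1 (hm _ hq.1)).1.trans hq.2.1, hq.2.2.trans (abs_le.1 (hM _ hq.1)).2⟩
  have := (hc.isClosed_le (pl_fst ha).1 continuousOn_snd).inter
    (hc.isClosed_le continuousOn_snd (pl_fst hb).1)
  convert this using 1
  ext q
  simp only [Rg, mem_ofPred_eq, mem_inter_iff, mem_prod, mem_univ, and_true]
  tauto

/-- a region between two graphs is a copy of the pyramid -/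
theorem two0 (hC : CMP) [FiniteDimensional ℝ E] {n : ℕ} {D B : Set E} {a b : E → ℝ}
    (hD : ConBall n D B) (ha : PLOn a D) (hb : PLOn b D) (h1 : ∀ x ∈ B, a x = b x)
    (h2 : ∀ x ∈ D \ B, a x < b x) :
    PH (Rg D a b) (Gr D a b) (Rg (closedBall (0 : Fin n → ℝ) 1) (fun _ => 0) fun y => 1 - ‖y‖)
      (Gr (closedBall (0 : Fin n → ℝ) 1) (fun _ => 0) fun y => 1 - ‖y‖) := by
  have hK := hD.isCompact
  have hL := hD.locCone
  obtain ⟨hBD, φ, hφ⟩ := hD
  have hab : ∀ x ∈ D, a x ≤ b x := fun x hx => by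
    by_cases h : x ∈ B
    · exact (h1 x h).le
    · exact (h2 x ⟨hx, h⟩).le
  have hd : PLOn (fun x => 1 - ‖φ.toFun x‖) D := ⟨continuousOn_const.sub φ.cont.norm,
    (conicalOn_const 1 φ.conicalSet_left).sub
      (Sh.conicalOn_norm_pi.comp φ.conical (mapsTo_univ _ _) φ.cont)⟩
  have hw : PLOn (fun x => b x - a x) D := ⟨hb.1.sub ha.1, hb.2.sub ha.2⟩
  have hd0 : ∀ x ∈ D, 0 ≤ 1 - ‖φ.toFun x‖ := fun x hx =>
    sub_nonneg.2 (mem_closedBall_zero_iff.1 (φ.mapsTo hx))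
  obtain ⟨C1, hC1, k1⟩ := hC hK hL hd hw (fun x hx => sub_nonneg.2 (hab x hx)) fun x hx h => by
    by_cases h' : x ∈ B
    · have : φ.toFun x ∈ sphere (0 : Fin n → ℝ) 1 := hφ ▸ mem_image_of_mem _ h'
      rw [mem_sphere_zero_iff_norm.1 this, sub_self]
    · exact absurd (sub_eq_zero.1 h) (h2 x ⟨hx, h'⟩).ne'
  obtain ⟨C2, hC2, k2⟩ := hC hK hL hw hd hd0 fun x hx h => by
    have : φ.toFun x ∈ φ.toFun '' B := hφ ▸ mem_sphere_zero_iff_norm.2 (sub_eq_zero.1 h).symm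
    obtain ⟨y, hy, e⟩ := this
    rw [← φ.injOn (hBD hy) hx e, h1 y hy, sub_self]
  set C := C1 + C2 with hCdef
  have hC0 : 0 < C := add_pos hC1 hC2
  set m : E → ℝ → ℝ := fun x t => max (C⁻¹ * (t - a x)) (1 - ‖φ.toFun x‖ - C * (b x - t)) with hm
  have ma : ∀ x ∈ D, m x (a x) = 0 := fun x hx => by
    simp only [hm, sub_self, mul_zero]
    refine max_eq_left ?_
    have := k1 x hx
    nlinarith [mul_nonneg hC2.le (sub_nonneg.2 (hab x hx))]
  have mb : ∀ x ∈ D, m x (b x) = 1 - ‖φ.toFun x‖ := fun x hx => by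
    simp only [hm, sub_self, mul_zero, sub_zero]
    refine max_eq_right ?_
    rw [inv_mul_le_iff₀ hC0]
    have := k2 x hx
    nlinarith [mul_nonneg hC1.le (hd0 x hx)]
  have mm : ∀ x, StrictMono (m x) := fun x s t h =>
    max_lt_max (mul_lt_mul_of_pos_left (by linarith) (inv_pos.2 hC0))
      (by nlinarith [mul_pos hC0 (sub_pos.2 h)])
  have hP := Sh.conicalSet_prod ha.2.conicalSet (Sh.conicalSet_univ (E := ℝ))
  have hs := Sh.conicalOn_snd hP
  have c1 : ContinuousOn (fun q : E × ℝ => C⁻¹ * (q.2 - a q.1)) (D ×ˢ univ) :=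
    continuousOn_const.mul (continuousOn_snd.sub (pl_fst ha).1)
  have c2 : ContinuousOn (fun q : E × ℝ => 1 - ‖φ.toFun q.1‖ - C * (b q.1 - q.2)) (D ×ˢ univ) :=
    (pl_fst hd).1.sub (continuousOn_const.mul ((pl_fst hb).1.sub continuousOn_snd))
  have pφ := pl_fst (h := φ.toFun) ⟨φ.cont, φ.conical⟩
  have hsub : Rg D a b ⊆ D ×ˢ univ := fun q hq => ⟨hq.1, mem_univ _⟩
  obtain ⟨Φ, hΦ⟩ := Sh.exists_ofCompact (isCompact_Rg hK ha hb) (fun q => (φ.toFun q.1, m q.1 q.2))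
    ((pφ.1.prodMk (c1.sup c2)).mono hsub)
    (fun q hq q' hq' e => by
      have e1 : q.1 = q'.1 := φ.injOn hq.1 hq'.1 (congrArg Prod.fst e)
      have e2 : m q.1 q.2 = m q'.1 q'.2 := congrArg Prod.snd e
      rw [← e1] at e2
      exact Prod.ext e1 ((mm _).injective e2))
    ((pφ.2.prodMk (((hs.sub (pl_fst ha).2).const_smul C⁻¹).rmax
      ((pl_fst hd).2.sub (((pl_fst hb).2.sub hs).const_smul C)) c1 c2)).mono
        (conicalSet_Rg ha hb) hsub)
    (Y := Rg (closedBall (0 : Fin n → ℝ) 1) (fun _ => 0) fun y => 1 - ‖y‖) (by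
      ext ⟨y, s⟩
      constructor
      · rintro ⟨q, hq, e⟩
        rw [← e]
        exact ⟨φ.mapsTo hq.1, (ma _ hq.1).ge.trans ((mm _).monotone hq.2.1),
          ((mm _).monotone hq.2.2).trans (mb _ hq.1).le⟩
      · rintro ⟨hy, hs⟩
        have hx := φ.mapsTo_inv hy
        have e := φ.right_inv hy
        have hcm : Continuous (m (φ.invFun y)) := by
          simp only [hm]
          fun_prop
        obtain ⟨t, ht, e2⟩ := intermediate_value_Icc (hab _ hx) hcm.continuousOn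
          (show s ∈ Icc _ _ by rw [ma _ hx, mb _ hx, e]; exact hs)
        exact ⟨(φ.invFun y, t), ⟨hx, ht⟩, Prod.ext e e2⟩)
  refine ⟨?_, Φ, ?_⟩
  · rintro q ⟨hq, e | e⟩
    · exact ⟨hq, e.ge, e.le.trans (hab _ hq)⟩
    · exact ⟨hq, (hab _ hq).trans e.ge, e.le⟩
  rw [hΦ]
  ext ⟨y, s⟩
  constructor
  · rintro ⟨q, ⟨hq, h | h⟩, e⟩ <;> rw [← e]
    · exact ⟨φ.mapsTo hq, Or.inl ((congrArg (m q.1) h).trans (ma _ hq))⟩
    · exact ⟨φ.mapsTo hq, Or.inr ((congrArg (m q.1) h).trans (mb _ hq))⟩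
  · rintro ⟨hy, h | h⟩
    · exact ⟨(φ.invFun y, a (φ.invFun y)), ⟨φ.mapsTo_inv hy, Or.inl rfl⟩,
        Prod.ext (φ.right_inv hy) ((ma _ (φ.mapsTo_inv hy)).trans h.symm)⟩
    · refine ⟨(φ.invFun y, b (φ.invFun y)), ⟨φ.mapsTo_inv hy, Or.inr rfl⟩,
        Prod.ext (φ.right_inv hy) ((mb _ (φ.mapsTo_inv hy)).trans ?_)⟩
      rw [φ.right_inv hy]
      exact h.symm

/-- the top (`σ = 1`) or the bottom (`σ = -1`) of a convex body without vertical faces -/
theorem top {K : Set (E × ℝ)} (hK : IsCompact K) (hc : Convex ℝ K) (hL : LocCone K)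
    (hv : ∀ x s t u, (x, s) ∈ K → (x, t) ∈ K → s < u → u < t → (x, u) ∈ interior K) {σ : ℝ}
    (hσ : σ = 1 ∨ σ = -1) : ∃ b : E → ℝ, PLOn b (Prod.fst '' K) ∧
      ∀ x ∈ Prod.fst '' K, (x, b x) ∈ K ∧ ∀ t, (x, t) ∈ K → σ * t ≤ σ * b x := by
  set T : Set (E × ℝ) := {p | p ∈ K ∧ ∀ ε : ℝ, 0 < ε → p + (0, σ * ε) ∉ K} with hT
  have hσ2 : σ * σ = 1 := by rcases hσ with rfl | rfl <;> norm_num
  have hmax : ∀ p ∈ T, ∀ t, (p.1, t) ∈ K → σ * t ≤ σ * p.2 := fun p hp t ht => by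
    by_contra h
    refine hp.2 (σ * t - σ * p.2) (by linarith) ?_
    convert ht using 1
    refine Prod.ext (add_zero _) ?_
    simp only [Prod.snd_add]
    linear_combination (t - p.2) * hσ2
  have hcl : IsClosed T := by
    have : T = K ∩ (⋃ ε : ℝ, ⋃ (_ : 0 < ε), (fun p => p + (0, σ * ε)) ⁻¹' interior K)ᶜ := by
      ext p
      simp only [hT, mem_ofPred_eq, mem_inter_iff, mem_compl_iff, mem_iUnion, mem_preimage, not_exists]
      refine and_congr_right fun hp => ⟨fun h ε hε h' => h ε hε (interior_subset h'),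
        fun h ε hε h' => h (ε / 2) (half_pos hε) ?_⟩
      obtain ⟨x, s⟩ := p
      simp only [Prod.mk_add_mk, add_zero] at h' ⊢
      rcases hσ with rfl | rfl
      · exact hv x _ _ _ hp h' (by linarith) (by linarith)
      · exact hv x _ _ _ h' hp (by linarith) (by linarith)
    rw [this]
    exact hK.isClosed.inter (isOpen_iUnion fun ε => isOpen_iUnion fun _ =>
      isOpen_interior.preimage (by fun_prop)).isClosed_compl
  have hcs : ConicalSet T := by
    intro p hp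
    obtain ⟨r, hr, H⟩ := hL p
    refine ⟨r / 2, half_pos hr, fun v hv' hpv t ht => ⟨?_, fun ε hε h => ?_⟩⟩
    · simpa using hc.add_smul_sub_mem hp.1 hpv.1 ht
    rcases ht.1.eq_or_lt with rfl | h0
    · exact hp.2 ε hε (by simpa using h)
    have hin : p + t • v ∈ K := by simpa using hc.add_smul_sub_mem hp.1 hpv.1 ht
    set δ := min (r / 2) (ε / t) with hδ
    have hδ0 : 0 < δ := lt_min (half_pos hr) (div_pos hε h0)
    have hδ1 : t * δ / ε ≤ 1 := by
      rw [div_le_one hε, ← le_div_iff₀' h0]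
      exact min_le_right _ _
    have h3 := hc.add_smul_sub_mem hin h (t := t * δ / ε) ⟨by positivity, hδ1⟩
    have h4 : ‖v + ((0 : E), σ * δ)‖ ≤ r := by
      have : ‖((0 : E), σ * δ)‖ ≤ r / 2 := by
        rw [Prod.norm_def, norm_zero, Real.norm_eq_abs, max_eq_right (abs_nonneg _), abs_mul,
          abs_of_pos hδ0]
        rcases hσ with rfl | rfl <;> simp [hδ]
      linarith [norm_add_le v ((0 : E), σ * δ)]
    refine hpv.2 δ hδ0 ?_
    rw [add_assoc, ← H _ h4 t ⟨h0, ht.2⟩]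
    convert h3 using 1
    refine Prod.ext (by simp) ?_
    simp only [Prod.snd_add, Prod.smul_snd, Prod.snd_sub, smul_eq_mul]
    field_simp
    ring
  obtain ⟨ψ, hψ⟩ := Sh.exists_ofCompact (hK.of_isClosed_subset hcl fun p hp => hp.1) Prod.fst
    continuousOn_fst (fun p hp q hq e => Prod.ext e (by
      have h1 := hmax p hp q.2 (by rw [show p.1 = q.1 from e]; exact hq.1)
      have h2 := hmax q hq p.2 (by rw [← show p.1 = q.1 from e]; exact hp.1)
      linear_combination σ * (le_antisymm h2 h1) - (p.2 - q.2) * hσ2))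
    (Sh.conicalOn_fst hcs) (Y := Prod.fst '' K) (by
      refine Subset.antisymm (image_mono fun p hp => hp.1) ?_
      rintro _ ⟨p, hp, rfl⟩
      obtain ⟨q, hq, hm⟩ := (hK.inter_right (isClosed_eq continuous_fst continuous_const)).exists_isMaxOn
        (⟨p, hp, rfl⟩ : (K ∩ {q | q.1 = p.1}).Nonempty) (f := fun q => σ * q.2) (by fun_prop)
      refine ⟨q, ⟨hq.1, fun ε hε h => ?_⟩, hq.2⟩
      have := hm (show q + (0, σ * ε) ∈ K ∩ {q | q.1 = p.1} from ⟨h, by simpa using hq.2⟩)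
      simp only [mem_ofPred_eq, Prod.snd_add] at this
      nlinarith)
  refine ⟨fun x => (ψ.invFun x).2, ⟨continuous_snd.comp_continuousOn ψ.cont_inv,
    ψ.conical_inv.linear_comp (LinearMap.snd ℝ E ℝ)⟩, fun x hx => ?_⟩
  have h1 := ψ.mapsTo_inv hx
  have h2 : (ψ.invFun x).1 = x := by
    have := ψ.right_inv hx
    rwa [hψ] at this
  refine ⟨?_, fun t ht => hmax _ h1 t (by rwa [h2])⟩
  have := h1.1
  rwa [← Prod.mk.eta (p := ψ.invFun x), h2] at this

end P073.A3
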